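import Vale.Agent.P211.Cert.Class

/-!
P211, the numerators of the certificate vector (generated from vec_H2a).
-/

namespace Vale.Agent.P211.Cert

/-- The numerator of the field `d(f - g)`. -/
def vecY0 : Num :=
  [
    ⟨752251, 0, 1, 2, 1⟩, ⟨(-1462579), 0, 1, 2, 2⟩, ⟨1263658, 0, 1, 3, 1⟩, ⟨(-1056515), 0, 1, 3, 2⟩,
    ⟨(-2652340), 0, 1, 4, 1⟩, ⟨2952251, 0, 1, 4, 2⟩, ⟨(-855056), 0, 3, 1, 1⟩,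
    ⟨(-3286773), 0, 3, 1, 2⟩, ⟨4183842, 0, 3, 2, 1⟩, ⟨4255239, 0, 3, 2, 2⟩,
    ⟨(-2809105), 0, 3, 3, 1⟩, ⟨(-966066), 0, 3, 3, 2⟩, ⟨1164990, 0, 5, 0, 1⟩, ⟨31399, 0, 5, 0, 2⟩,
    ⟨(-2855802), 0, 5, 1, 1⟩, ⟨126581, 0, 5, 1, 2⟩, ⟨(-1028363), 0, 5, 2, 1⟩, ⟨1843276, 0, 5, 2, 2⟩,
    ⟨539875, 0, 7, 0, 1⟩, ⟨(-273108), 0, 7, 0, 2⟩, ⟨(-3793726), 1, 1, 1, 1⟩,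
    ⟨(-355229), 1, 1, 1, 2⟩, ⟨5003905, 1, 1, 2, 1⟩, ⟨551776, 1, 1, 2, 2⟩, ⟨(-4502956), 1, 1, 3, 1⟩,
    ⟨(-78068), 1, 1, 3, 2⟩, ⟨686799, 1, 3, 0, 1⟩, ⟨49821, 1, 3, 0, 2⟩, ⟨11314012, 1, 3, 1, 1⟩,
    ⟨(-2100826), 1, 3, 1, 2⟩, ⟨(-8951179), 1, 3, 2, 1⟩, ⟨1097310, 1, 3, 2, 2⟩,
    ⟨(-1760881), 1, 5, 0, 1⟩, ⟨301884, 1, 5, 0, 2⟩, ⟨(-31383), 2, 1, 0, 1⟩, ⟨36906, 2, 1, 0, 2⟩,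
    ⟨(-86657), 2, 1, 1, 1⟩, ⟨(-39969), 2, 1, 1, 2⟩, ⟨(-57751), 2, 1, 2, 1⟩, ⟨58056, 2, 1, 2, 2⟩,
    ⟨460584, 2, 3, 0, 1⟩, ⟨3367, 2, 3, 0, 2⟩]

/-- The numerator of the field `d(f + g)`. -/
def vecY1 : Num :=
  [
    ⟨(-54502525), 0, 2, 1, 1⟩, ⟨54657621, 0, 2, 1, 2⟩, ⟨34366758, 0, 2, 2, 1⟩,
    ⟨(-33858046), 0, 2, 2, 2⟩, ⟨(-368106), 0, 2, 3, 1⟩, ⟨(-36794), 0, 2, 3, 2⟩,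
    ⟨(-216864), 0, 4, 0, 1⟩, ⟨267953, 0, 4, 0, 2⟩, ⟨58222, 0, 4, 1, 1⟩, ⟨52495, 0, 4, 1, 2⟩,
    ⟨845229, 0, 4, 2, 1⟩, ⟨(-1191738), 0, 4, 2, 2⟩, ⟨(-213851), 0, 6, 0, 1⟩, ⟨151166, 0, 6, 0, 2⟩,
    ⟨(-9999841445), 1, 0, 1, 1⟩, ⟨10000000000, 1, 0, 1, 2⟩, ⟨8849812854, 1, 0, 2, 1⟩,
    ⟨(-8849661082), 1, 0, 2, 2⟩, ⟨(-116301), 1, 0, 3, 1⟩, ⟨(-154495), 1, 0, 3, 2⟩,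
    ⟨(-8869014854), 1, 2, 0, 1⟩, ⟨8868999355, 1, 2, 0, 2⟩, ⟨(-54332787), 1, 2, 1, 1⟩,
    ⟨172890, 1, 2, 1, 2⟩, ⟨34409145, 1, 2, 2, 1⟩, ⟨(-19558), 1, 2, 2, 2⟩, ⟨(-622846), 1, 4, 0, 1⟩,
    ⟨298680, 1, 4, 0, 2⟩, ⟨376301, 2, 0, 0, 1⟩, ⟨41069, 2, 0, 0, 2⟩, ⟨(-9999932089), 2, 0, 1, 1⟩,
    ⟨(-3754), 2, 0, 1, 2⟩, ⟨8849616434, 2, 0, 2, 1⟩, ⟨(-35549), 2, 0, 2, 2⟩,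
    ⟨(-8869856941), 2, 2, 0, 1⟩, ⟨19066, 2, 2, 0, 2⟩]

/-- The numerator of the Hessian field. -/
def vecY2 : Num :=
  [
    ⟨106391008, 0, 0, 2, 0⟩, ⟨(-106200199), 0, 0, 2, 1⟩, ⟨(-150100), 0, 0, 3, 0⟩,
    ⟨229388, 0, 0, 3, 1⟩, ⟨(-1170876), 0, 0, 4, 0⟩, ⟨1159885, 0, 0, 4, 1⟩, ⟨(-431042), 0, 2, 1, 0⟩,
    ⟨535046, 0, 2, 1, 1⟩, ⟨(-579106), 0, 2, 2, 0⟩, ⟨(-449258), 0, 2, 2, 1⟩,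
    ⟨(-1610776), 0, 2, 3, 0⟩, ⟨2176316, 0, 2, 3, 1⟩, ⟨63614, 0, 4, 0, 0⟩, ⟨(-105932), 0, 4, 0, 1⟩,
    ⟨(-549169), 0, 4, 1, 0⟩, ⟨1152418, 0, 4, 1, 1⟩, ⟨1482353, 0, 4, 2, 0⟩, ⟨(-1569652), 0, 4, 2, 1⟩,
    ⟨(-413705), 0, 6, 0, 0⟩, ⟨260984, 0, 6, 0, 1⟩, ⟨320966, 1, 0, 1, 0⟩, ⟨182395, 1, 0, 1, 1⟩,
    ⟨90747311, 1, 0, 2, 0⟩, ⟨17640052, 1, 0, 2, 1⟩, ⟨(-3076857), 1, 0, 3, 0⟩, ⟨5740, 1, 0, 3, 1⟩,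
    ⟨(-18367), 1, 2, 0, 0⟩, ⟨52046, 1, 2, 0, 1⟩, ⟨(-1484858), 1, 2, 1, 0⟩, ⟨(-933396), 1, 2, 1, 1⟩,
    ⟨(-1122310), 1, 2, 2, 0⟩, ⟨731000, 1, 2, 2, 1⟩, ⟨3318, 1, 4, 0, 0⟩, ⟨(-1093), 1, 4, 0, 1⟩,
    ⟨(-10149), 2, 0, 0, 0⟩, ⟨10996, 2, 0, 0, 1⟩, ⟨(-60126), 2, 0, 1, 0⟩, ⟨55015, 2, 0, 1, 1⟩,
    ⟨(-17033129), 2, 0, 2, 0⟩, ⟨18093, 2, 0, 2, 1⟩, ⟨22875, 2, 2, 0, 0⟩, ⟨(-35001), 2, 2, 0, 1⟩]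

/-- The numerator of the constant part of the multiplier. -/
def vecY3 : Num :=
  [
    ⟨2696, 0, 4, 0, 1⟩, ⟨123015, 0, 4, 0, 2⟩, ⟨22942, 0, 6, 0, 1⟩, ⟨(-89973), 0, 6, 0, 2⟩,
    ⟨(-43969), 1, 2, 0, 1⟩, ⟨(-29858), 1, 2, 0, 2⟩, ⟨(-17629), 1, 4, 0, 1⟩, ⟨78412, 1, 4, 0, 2⟩,
    ⟨(-13529), 2, 0, 0, 1⟩, ⟨25557, 2, 0, 0, 2⟩, ⟨(-80123), 2, 2, 0, 1⟩, ⟨(-15203), 2, 2, 0, 2⟩]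

/-- The numerator of the slope of the multiplier. -/
def vecY4 : Num :=
  [
    ⟨(-4445278), 0, 4, 0, 1⟩, ⟨4508423, 0, 4, 0, 2⟩, ⟨(-835986), 0, 6, 0, 1⟩, ⟨811286, 0, 6, 0, 2⟩,
    ⟨83294, 1, 2, 0, 1⟩, ⟨731715, 1, 2, 0, 2⟩, ⟨(-6130130), 1, 4, 0, 1⟩, ⟨79731, 1, 4, 0, 2⟩,
    ⟨13771, 2, 0, 0, 1⟩, ⟨30731, 2, 0, 0, 2⟩, ⟨(-945801), 2, 2, 0, 1⟩, ⟨7302, 2, 2, 0, 2⟩]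

/-- The certificate vector. -/
def vecV : Vec := ⟨vecY0, vecY1, vecY2, vecY3, vecY4⟩

end Vale.Agent.P211.Cert
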